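import Vale.Agent.P168.Limit

open MeasureTheory Real Filter

namespace Vale.Agent.Results.P168.LargeArity
open Vale.Agent.P168

theorem result :
    ∀ (ν η : Measure (ℝ × ℝ)) (ρ : Measure ℝ),
      IsProbabilityMeasure ν → IsProbabilityMeasure η → IsProbabilityMeasure ρ →
      (∀ᵐ c ∂ν, 0 < c.1 ∧ |c.2| < 1) → (∀ᵐ p ∂η, |p.1| ≤ 1 ∧ |p.2| ≤ 1) →
      Integrable (fun y : ℝ => y) ρ →
      Integrable (fun c : ℝ × ℝ => Real.log c.1) ν →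
      Integrable (fun c : ℝ × ℝ => Real.log (1 - |c.2|)) ν →
      ∀ lam : ℝ, 0 < lam → ∀ ε : ℝ, 0 < ε →
      ∃ (m : ℝ) (x : ℝ → ℝ → ℝ) (K₀ : ℕ), 0 < m ∧ m < 1 ∧ Measurable (Function.uncurry x) ∧
        (∀ u v, |x u v| ≤ 1) ∧
        ∀ K, K₀ ≤ K → ∀ᶠ N : ℕ in atTop,
          depthOne ν η ρ lam K m x - ε ≤ pressure ν η ρ lam K N := by
  intro ν η ρ pν pη pρ hab hf hh hla hlb lam hlam ε hε
  exact large_arity ⟨pν, pη, pρ, hab, hf, hh, hla, hlb.neg⟩ hlam.le hε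

end Vale.Agent.Results.P168.LargeArity
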