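import Vale.Agent.P168.MP.Main
import Vale.Agent.P168.MP.GainBound

open MeasureTheory Real Filter Topology

namespace Vale.Agent.Results.P168.MezardParisi
open Vale.Agent.P168 Vale.Agent.P168.MP

/-- The formula of Mézard and Parisi. -/
theorem result :
    ∀ (K : ℕ), Even K → 2 ≤ K → ∀ lam : ℝ, 0 < lam →
    ∀ (μ : Measure (Clause K)) (β : Measure ℝ) (η : Measure (ℝ × ℝ)) (ρ : Measure ℝ),
      IsProbabilityMeasure μ → IsProbabilityMeasure β → IsProbabilityMeasure η →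
      IsProbabilityMeasure ρ →
      μ.map (fun c => (c.1.2, c.2)) = β.prod (Measure.pi fun _ : Fin K => η) →
      (∀ᵐ c ∂μ, 0 < c.1.1) → (∀ᵐ b ∂β, |b| < 1) → (∀ᵐ p ∂η, |p.1| ≤ 1 ∧ |p.2| ≤ 1) →
      Integrable (fun y : ℝ => y) ρ →
      (∀ σ : Fin K → Bool, Integrable (fun c : Clause K => theta c σ) μ) →
      (∀ n : ℕ, 1 ≤ n → 0 ≤ ∫ b, (-b) ^ n ∂β) →
      (mpValues μ ρ lam).Nonempty ∧ BddBelow (mpValues μ ρ lam) ∧
        Tendsto (pressureM μ ρ lam) atTop (𝓝 (sInf (mpValues μ ρ lam))) := by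
  intro K hK hK2 lam hlam μ β η ρ pμ pβ pη pρ marg ha hb hf hh hθ hpos
  have : NeZero K := ⟨by omega⟩
  exact formula_of_gainBound hK hK2 hlam.le (fun L hL => gain_bound hlam.le hL)
    ⟨pμ, pβ, pη, pρ, marg, ha, hb, hf, hh, hθ, hpos⟩

end Vale.Agent.Results.P168.MezardParisi
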